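import Vale.Agent.Helper16.KTVG.Plan
import Vale.Agent.Helper6.KTVG.PairBasics
import Vale.Agent.Helper24.KTV.Rect

/-!
Switch chain on general graphs (problem P335): module M3b-i

On the graphs with an odd number of edges between two disjoint pairs `{u,v}`, `{w,z}`
the two pair heat baths commute (`KTVG.OddStmt`).  The fibres of the two pair labels
form a rectangular structure there: the 2x2 block between the pairs is determined by its
row sums and its column sums.
-/

set_option linter.unusedSectionVars false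

namespace KTVG

namespace H24

open Finset KTV
open Classical

variable {n : ℕ}

/-- On a union of classes the conditional expectation may be computed inside the union. -/
theorem cexpL_filter_eq {X Λ : Type*} [DecidableEq Λ] (Ω : Finset X) (P : X → Prop)
    [DecidablePred P] (lab : X → Λ)
    (hsat : ∀ x ∈ Ω, ∀ y ∈ Ω, lab x = lab y → (P x ↔ P y)) (f : X → ℝ) {x : X}
    (hx : x ∈ Ω) (hP : P x) : cexpL Ω lab f x = cexpL (Ω.filter P) lab f x := by
  rw [cexpL_eq, cexpL_eq]
  have : (Ω.filter P).filter (fun y => lab y = lab x) = Ω.filter (fun y => lab y = lab x) := by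
    ext y
    simp only [mem_filter]
    constructor
    · rintro ⟨⟨hy, _⟩, e⟩; exact ⟨hy, e⟩
    · rintro ⟨hy, e⟩; exact ⟨⟨hy, (hsat y hy x hx e).mpr hP⟩, e⟩
  rw [this]

/-- A 2x2 table with entries 0, 1 and an odd total is determined by its margins:
the entries of the table with row sums `ru, rv` and column sums `cw, cz`. -/
theorem blk_arith (ru rv cw cz t : ℕ) (h1 : ru + rv = t) (h2 : cw + cz = t)
    (hodd : t % 2 = 1) (hru : ru ≤ 2) (hrv : rv ≤ 2) (hcw : cw ≤ 2) (hcz : cz ≤ 2) :
    ((if t + 2 < 2 * (ru + cw) then 1 else 0) + (if t + 2 < 2 * (ru + cz) then 1 else 0) = ru) ∧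
    ((if t + 2 < 2 * (rv + cw) then 1 else 0) + (if t + 2 < 2 * (rv + cz) then 1 else 0) = rv) ∧
    ((if t + 2 < 2 * (ru + cw) then 1 else 0) + (if t + 2 < 2 * (rv + cw) then 1 else 0) = cw) ∧
    ((if t + 2 < 2 * (ru + cz) then 1 else 0) + (if t + 2 < 2 * (rv + cz) then 1 else 0) = cz) := by
  refine ⟨?_, ?_, ?_, ?_⟩ <;> split_ifs <;> omega

theorem blk_uniq (a1 a2 a3 a4 b1 b2 b3 b4 : ℕ) (ha1 : a1 ≤ 1) (ha2 : a2 ≤ 1) (ha3 : a3 ≤ 1)
    (ha4 : a4 ≤ 1) (hb1 : b1 ≤ 1) (hb2 : b2 ≤ 1) (hb3 : b3 ≤ 1) (hb4 : b4 ≤ 1)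
    (hr1 : a1 + a2 = b1 + b2) (hr2 : a3 + a4 = b3 + b4) (hc1 : a1 + a3 = b1 + b3)
    (hc2 : a2 + a4 = b2 + b4) (hodd : (a1 + a2 + a3 + a4) % 2 = 1) :
    a1 = b1 ∧ a2 = b2 ∧ a3 = b3 ∧ a4 = b4 := by
  omega

/-- From a pointwise comparison of two rows of slot values to the degrees. -/
theorem deg_of_pointwise (m G : SimpleGraph (Fin n)) (c p q : Fin n) (α β γ δ : ℕ)
    (h : ∀ x : Fin n, adjN m c x + (if x = p then α else 0) + (if x = q then β else 0)
      = adjN G c x + (if x = p then γ else 0) + (if x = q then δ else 0)) :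
    m.degree c + α + β = G.degree c + γ + δ := by
  rw [degree_eq_sum, degree_eq_sum]
  have h' := Finset.sum_congr rfl (fun x (_ : x ∈ (Finset.univ : Finset (Fin n))) => h x)
  simp only [Finset.sum_add_distrib, Finset.sum_ite_eq', Finset.mem_univ, if_true] at h'
  exact h'

/-- entry of the block of the fourth corner: the 2x2 table with the row sums of the block
of `G1` and the column sums of the block of `G2` -/
def Bk (u v w z : Fin n) (G1 G2 : SimpleGraph (Fin n)) (a b : Fin n) : Prop :=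
  (a = u ∨ a = v) ∧ (b = w ∨ b = z) ∧
    yB u v w z G1 + 2 < 2 * (adjN G1 a w + adjN G1 a z + (adjN G2 u b + adjN G2 v b))

/-- the fourth corner: slots at `u` or `v` outside the block from `G1`, all slots avoiding
`u` and `v` from `G2`, and the block given by `Bk` -/
def corner (u v w z : Fin n) (huw : u ≠ w) (huz : u ≠ z) (hvw : v ≠ w) (hvz : v ≠ z)
    (G1 G2 : SimpleGraph (Fin n)) : SimpleGraph (Fin n) where
  Adj a b := Bk u v w z G1 G2 a b ∨ Bk u v w z G1 G2 b a ∨
    ((a = u ∨ a = v ∨ b = u ∨ b = v) ∧ ¬ ((a = u ∨ a = v) ∧ (b = w ∨ b = z)) ∧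
      ¬ ((b = u ∨ b = v) ∧ (a = w ∨ a = z)) ∧ G1.Adj a b) ∨
    (a ≠ u ∧ a ≠ v ∧ b ≠ u ∧ b ≠ v ∧ G2.Adj a b)
  symm := ⟨by
    intro a b h
    rcases h with h | h | ⟨h1, h2, h3, h4⟩ | ⟨h1, h2, h3, h4, h5⟩
    · exact Or.inr (Or.inl h)
    · exact Or.inl h
    · exact Or.inr (Or.inr (Or.inl ⟨by tauto, h3, h2, h4.symm⟩))
    · exact Or.inr (Or.inr (Or.inr ⟨h3, h4, h1, h2, h5.symm⟩))⟩
  loopless := ⟨by
    intro a h
    rcases h with h | h | ⟨_, _, _, h4⟩ | ⟨_, _, _, _, h5⟩
    · obtain ⟨h1, h2, _⟩ := h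
      rcases h1 with rfl | rfl <;> rcases h2 with e | e
      · exact huw e
      · exact huz e
      · exact hvw e
      · exact hvz e
    · obtain ⟨h1, h2, _⟩ := h
      rcases h1 with rfl | rfl <;> rcases h2 with e | e
      · exact huw e
      · exact huz e
      · exact hvw e
      · exact hvz e
    · exact G1.irrefl h4
    · exact G2.irrefl h5⟩

section Corner

variable {u v w z : Fin n} (huw : u ≠ w) (huz : u ≠ z) (hvw : v ≠ w) (hvz : v ≠ z)
  (G1 G2 : SimpleGraph (Fin n))

theorem corner_blk {a b : Fin n} (ha : a = u ∨ a = v) (hb : b = w ∨ b = z) :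
    (corner u v w z huw huz hvw hvz G1 G2).Adj a b ↔
      yB u v w z G1 + 2 < 2 * (adjN G1 a w + adjN G1 a z + (adjN G2 u b + adjN G2 v b)) := by
  constructor
  · intro h
    rcases h with h | h | h | h
    · exact h.2.2
    · exfalso
      obtain ⟨h1, _, _⟩ := h
      rcases h1 with rfl | rfl <;> rcases hb with e | e
      · exact huw e
      · exact huz e
      · exact hvw e
      · exact hvz e
    · exact absurd ⟨ha, hb⟩ h.2.1
    · rcases ha with e | e
      · exact absurd e h.1
      · exact absurd e h.2.1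
  · intro h
    exact Or.inl ⟨ha, hb, h⟩

theorem corner_uv {a b : Fin n} (hab : a = u ∨ a = v ∨ b = u ∨ b = v)
    (h1 : ¬ ((a = u ∨ a = v) ∧ (b = w ∨ b = z)))
    (h2 : ¬ ((b = u ∨ b = v) ∧ (a = w ∨ a = z))) :
    (corner u v w z huw huz hvw hvz G1 G2).Adj a b ↔ G1.Adj a b := by
  constructor
  · intro h
    rcases h with h | h | h | h
    · exact absurd ⟨h.1, h.2.1⟩ h1
    · exact absurd ⟨h.1, h.2.1⟩ h2
    · exact h.2.2.2
    · exfalso
      rcases hab with e | e | e | e
      · exact h.1 e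
      · exact h.2.1 e
      · exact h.2.2.1 e
      · exact h.2.2.2.1 e
  · intro h
    exact Or.inr (Or.inr (Or.inl ⟨hab, h1, h2, h⟩))

theorem corner_off {a b : Fin n} (hau : a ≠ u) (hav : a ≠ v) (hbu : b ≠ u) (hbv : b ≠ v) :
    (corner u v w z huw huz hvw hvz G1 G2).Adj a b ↔ G2.Adj a b := by
  constructor
  · intro h
    rcases h with h | h | h | h
    · exfalso
      rcases h.1 with e | e
      · exact hau e
      · exact hav e
    · exfalso
      rcases h.1 with e | e
      · exact hbu e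
      · exact hbv e
    · exfalso
      rcases h.1 with e | e | e | e
      · exact hau e
      · exact hav e
      · exact hbu e
      · exact hbv e
    · exact h.2.2.2.2
  · intro h
    exact Or.inr (Or.inr (Or.inr ⟨hau, hav, hbu, hbv, h⟩))

theorem adjN_corner_blk {a b : Fin n} (ha : a = u ∨ a = v) (hb : b = w ∨ b = z) :
    adjN (corner u v w z huw huz hvw hvz G1 G2) a b
      = if yB u v w z G1 + 2 < 2 * (adjN G1 a w + adjN G1 a z + (adjN G2 u b + adjN G2 v b))
        then 1 else 0 := by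
  unfold adjN
  exact if_congr (corner_blk huw huz hvw hvz G1 G2 ha hb) rfl rfl

end Corner


/-- If two graphs have the same slot values at `c` except at `p` and `q`, their degrees
at `c` differ by the slot values at `p` and `q`. -/
theorem deg_two (m G : SimpleGraph (Fin n)) (c p q : Fin n) (hpq : p ≠ q)
    (hrest : ∀ x, x ≠ p → x ≠ q → adjN m c x = adjN G c x) :
    m.degree c + adjN G c p + adjN G c q = G.degree c + adjN m c p + adjN m c q := by
  refine deg_of_pointwise m G c p q (adjN G c p) (adjN G c q) (adjN m c p) (adjN m c q) ?_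
  intro x
  by_cases e1 : x = p
  · simp [e1, hpq]
    omega
  · by_cases e2 : x = q
    · simp [e2, hpq.symm]
      omega
    · simp [e1, e2, hrest x e1 e2]

section Mix

variable {d : Fin n → ℕ} {u v w z : Fin n}

theorem corner_labP_wz (huw : u ≠ w) (huz : u ≠ z) (hvw : v ≠ w) (hvz : v ≠ z)
    {x y y' : SimpleGraph (Fin n)} (h1 : labP u v y = labP u v x)
    (h2 : labP w z y' = labP w z x) :
    labP w z (corner u v w z huw huz hvw hvz y y') = labP w z y := by
  apply labP_eq_of_adj
  intro a b haw haz hbw hbz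
  by_cases hab : a = u ∨ a = v ∨ b = u ∨ b = v
  · exact corner_uv huw huz hvw hvz y y' hab (fun h => h.2.elim hbw hbz)
      (fun h => h.2.elim haw haz)
  · simp only [not_or] at hab
    rw [corner_off huw huz hvw hvz y y' hab.1 hab.2.1 hab.2.2.1 hab.2.2.2]
    exact (labP_adj h2 haw haz hbw hbz).trans
      (labP_adj h1 hab.1 hab.2.1 hab.2.2.1 hab.2.2.2).symm

theorem corner_labP_uv (huw : u ≠ w) (huz : u ≠ z) (hvw : v ≠ w) (hvz : v ≠ z)
    (y y' : SimpleGraph (Fin n)) :
    labP u v (corner u v w z huw huz hvw hvz y y') = labP u v y' := by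
  apply labP_eq_of_adj
  intro a b hau hav hbu hbv
  exact corner_off huw huz hvw hvz y y' hau hav hbu hbv

theorem corner_mem (huv : u ≠ v) (huw : u ≠ w) (huz : u ≠ z) (hvw : v ≠ w) (hvz : v ≠ z)
    (hwz : w ≠ z) {x y y' : SimpleGraph (Fin n)} (hx : x ∈ gOmega n d)
    (hy : y ∈ gOmega n d) (hy' : y' ∈ gOmega n d) (h1 : labP u v y = labP u v x)
    (h2 : labP w z y' = labP w z x) (hodd : OddB u v w z x) :
    corner u v w z huw huz hvw hvz y y' ∈ gOmega n d := by
  rw [mem_gOmega]
  intro c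
  have hyx : yB u v w z y = yB u v w z x :=
    yB_eq_of_labP_left huv huw.symm hvw.symm huz.symm hvz.symm hy hx h1
  have hy'x : yB u v w z y' = yB u v w z x :=
    yB_eq_of_labP_right hwz huw huz hvw hvz hy' hx h2
  have hoddy : yB u v w z y % 2 = 1 := by
    rw [hyx]; exact Nat.odd_iff.mp hodd
  have hrows : (adjN y u w + adjN y u z) + (adjN y v w + adjN y v z) = yB u v w z y :=
    (yB_rows u v w z y).symm
  have hcols : (adjN y' u w + adjN y' v w) + (adjN y' u z + adjN y' v z) = yB u v w z y := by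
    rw [hyx, ← hy'x]; unfold yB; ring
  have b1 := adjN_le_one y u w
  have b2 := adjN_le_one y u z
  have b3 := adjN_le_one y v w
  have b4 := adjN_le_one y v z
  have b5 := adjN_le_one y' u w
  have b6 := adjN_le_one y' u z
  have b7 := adjN_le_one y' v w
  have b8 := adjN_le_one y' v z
  obtain ⟨Bu, Bv, Bw, Bz⟩ := blk_arith (adjN y u w + adjN y u z) (adjN y v w + adjN y v z)
    (adjN y' u w + adjN y' v w) (adjN y' u z + adjN y' v z) (yB u v w z y) hrows hcols hoddy
    (by omega) (by omega) (by omega) (by omega)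
  have hdy := mem_gOmega.mp hy
  have hdy' := mem_gOmega.mp hy'
  by_cases hcu : c = u
  · rw [hcu]
    have hp := deg_two (corner u v w z huw huz hvw hvz y y') y u w z hwz (by
      intro a haw haz
      exact adjN_congr (corner_uv huw huz hvw hvz y y' (Or.inl rfl)
        (fun h => h.2.elim haw haz) (fun h => h.2.elim huw huz)))
    rw [adjN_corner_blk huw huz hvw hvz y y' (Or.inl rfl) (Or.inl rfl),
      adjN_corner_blk huw huz hvw hvz y y' (Or.inl rfl) (Or.inr rfl), hdy u] at hp
    omega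
  by_cases hcv : c = v
  · rw [hcv]
    have hp := deg_two (corner u v w z huw huz hvw hvz y y') y v w z hwz (by
      intro a haw haz
      exact adjN_congr (corner_uv huw huz hvw hvz y y' (Or.inr (Or.inl rfl))
        (fun h => h.2.elim haw haz) (fun h => h.2.elim hvw hvz)))
    rw [adjN_corner_blk huw huz hvw hvz y y' (Or.inr rfl) (Or.inl rfl),
      adjN_corner_blk huw huz hvw hvz y y' (Or.inr rfl) (Or.inr rfl), hdy v] at hp
    omega
  by_cases hcw : c = w
  · rw [hcw]
    have hp := deg_two (corner u v w z huw huz hvw hvz y y') y' w u v huv (by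
      intro a hau hav
      exact adjN_congr (corner_off huw huz hvw hvz y y' huw.symm hvw.symm hau hav))
    rw [adjN_comm (corner u v w z huw huz hvw hvz y y') w u,
      adjN_comm (corner u v w z huw huz hvw hvz y y') w v,
      adjN_corner_blk huw huz hvw hvz y y' (Or.inl rfl) (Or.inl rfl),
      adjN_corner_blk huw huz hvw hvz y y' (Or.inr rfl) (Or.inl rfl), hdy' w,
      adjN_comm y' w u, adjN_comm y' w v] at hp
    omega
  by_cases hcz : c = z
  · rw [hcz]
    have hp := deg_two (corner u v w z huw huz hvw hvz y y') y' z u v huv (by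
      intro a hau hav
      exact adjN_congr (corner_off huw huz hvw hvz y y' huz.symm hvz.symm hau hav))
    rw [adjN_comm (corner u v w z huw huz hvw hvz y y') z u,
      adjN_comm (corner u v w z huw huz hvw hvz y y') z v,
      adjN_corner_blk huw huz hvw hvz y y' (Or.inl rfl) (Or.inr rfl),
      adjN_corner_blk huw huz hvw hvz y y' (Or.inr rfl) (Or.inr rfl), hdy' z,
      adjN_comm y' z u, adjN_comm y' z v] at hp
    omega
  · have hp := deg_two (corner u v w z huw huz hvw hvz y y') y' c u v huv (by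
      intro a hau hav
      exact adjN_congr (corner_off huw huz hvw hvz y y' hcu hcv hau hav))
    have e1 : adjN (corner u v w z huw huz hvw hvz y y') c u = adjN y c u :=
      adjN_congr (corner_uv huw huz hvw hvz y y' (Or.inr (Or.inr (Or.inl rfl)))
        (fun h => h.1.elim hcu hcv) (fun h => h.2.elim hcw hcz))
    have e2 : adjN (corner u v w z huw huz hvw hvz y y') c v = adjN y c v :=
      adjN_congr (corner_uv huw huz hvw hvz y y' (Or.inr (Or.inr (Or.inr rfl)))
        (fun h => h.1.elim hcu hcv) (fun h => h.2.elim hcw hcz))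
    have e3 := pairsum_eq_of_labP huv hy hx h1 hcu hcv
    have e4 : adjN y' c u = adjN x c u := adjN_congr (labP_adj h2 hcw hcz huw huz)
    have e5 : adjN y' c v = adjN x c v := adjN_congr (labP_adj h2 hcw hcz hvw hvz)
    rw [e1, e2, hdy' c] at hp
    omega

theorem odd_rectU (d : Fin n → ℕ) (huv : u ≠ v) (huw : u ≠ w) (huz : u ≠ z) (hvw : v ≠ w)
    (hvz : v ≠ z) (hwz : w ≠ z) :
    H24.RectU ((gOmega n d).filter (OddB u v w z)) (labP u v) (labP w z) := by
  intro G hG G' hG' e1 e2
  obtain ⟨hGΩ, hGo⟩ := mem_filter.mp hG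
  obtain ⟨hG'Ω, _⟩ := mem_filter.mp hG'
  have r1 := pairsum_eq_of_labP hwz hGΩ hG'Ω e2 huw huz
  have r2 := pairsum_eq_of_labP hwz hGΩ hG'Ω e2 hvw hvz
  have c1 := pairsum_eq_of_labP huv hGΩ hG'Ω e1 huw.symm hvw.symm
  have c2 := pairsum_eq_of_labP huv hGΩ hG'Ω e1 huz.symm hvz.symm
  rw [adjN_comm G w u, adjN_comm G w v, adjN_comm G' w u, adjN_comm G' w v] at c1
  rw [adjN_comm G z u, adjN_comm G z v, adjN_comm G' z u, adjN_comm G' z v] at c2
  have ho : (adjN G u w + adjN G u z + adjN G v w + adjN G v z) % 2 = 1 :=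
    Nat.odd_iff.mp hGo
  obtain ⟨k1, k2, k3, k4⟩ := blk_uniq _ _ _ _ _ _ _ _ (adjN_le_one G u w) (adjN_le_one G u z)
    (adjN_le_one G v w) (adjN_le_one G v z) (adjN_le_one G' u w) (adjN_le_one G' u z)
    (adjN_le_one G' v w) (adjN_le_one G' v z) r1 r2 c1 c2 ho
  have key : ∀ a b, (a = u ∨ a = v) → (b = w ∨ b = z) → (G.Adj a b ↔ G'.Adj a b) := by
    intro a b ha hb
    rw [← adjN_eq_one_iff, ← adjN_eq_one_iff]
    rcases ha with ha | ha <;> rcases hb with hb | hb <;> rw [ha, hb]
    · rw [k1]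
    · rw [k2]
    · rw [k3]
    · rw [k4]
  ext a b
  by_cases ha : a = u ∨ a = v
  · by_cases hb' : b = w ∨ b = z
    · exact key a b ha hb'
    · simp only [not_or] at hb'
      have haw : a ≠ w := by
        rcases ha with ha | ha <;> rw [ha]
        · exact huw
        · exact hvw
      have haz : a ≠ z := by
        rcases ha with ha | ha <;> rw [ha]
        · exact huz
        · exact hvz
      exact labP_adj e2 haw haz hb'.1 hb'.2
  · simp only [not_or] at ha
    by_cases hb : b = u ∨ b = v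
    · by_cases ha' : a = w ∨ a = z
      · rw [G.adj_comm, G'.adj_comm]
        exact key b a hb ha'
      · simp only [not_or] at ha'
        have hbw : b ≠ w := by
          rcases hb with hb | hb <;> rw [hb]
          · exact huw
          · exact hvw
        have hbz : b ≠ z := by
          rcases hb with hb | hb <;> rw [hb]
          · exact huz
          · exact hvz
        exact labP_adj e2 ha'.1 ha'.2 hbw hbz
    · simp only [not_or] at hb
      exact labP_adj e1 ha.1 ha.2 hb.1 hb.2

theorem odd_rectM (d : Fin n → ℕ) (huv : u ≠ v) (huw : u ≠ w) (huz : u ≠ z) (hvw : v ≠ w)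
    (hvz : v ≠ z) (hwz : w ≠ z) :
    H24.RectM ((gOmega n d).filter (OddB u v w z)) (labP u v) (labP w z) := by
  intro x hx y hy y' hy' h1 h2
  obtain ⟨hxΩ, hxo⟩ := mem_filter.mp hx
  obtain ⟨hyΩ, _⟩ := mem_filter.mp hy
  obtain ⟨hy'Ω, hy'o⟩ := mem_filter.mp hy'
  have hm := corner_mem huv huw huz hvw hvz hwz hxΩ hyΩ hy'Ω h1 h2 hxo
  refine ⟨corner u v w z huw huz hvw hvz y y', ?_, corner_labP_wz huw huz hvw hvz h1 h2,
    corner_labP_uv huw huz hvw hvz y y'⟩
  rw [mem_filter]
  refine ⟨hm, ?_⟩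
  have e := yB_eq_of_labP_left huv huw.symm hvw.symm huz.symm hvz.symm hm hy'Ω
    (corner_labP_uv huw huz hvw hvz y y')
  unfold OddB
  rw [e]
  exact hy'o

end Mix

/-- **M3b-i**: on the graphs with an odd number of edges between the two pairs, the two
pair heat baths commute, and this set is a union of fibres of the first pair. -/
theorem oddStmt (n : ℕ) (d : Fin n → ℕ) : OddStmt n d := by
  intro u v w z hD
  obtain ⟨huv, huw, huz, hvw, hvz, hwz⟩ := hD
  have s1 : ∀ G ∈ gOmega n d, ∀ G' ∈ gOmega n d, labP u v G = labP u v G' →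
      (OddB u v w z G ↔ OddB u v w z G') := by
    intro G hG G' hG' h
    unfold OddB
    rw [yB_eq_of_labP_left huv huw.symm hvw.symm huz.symm hvz.symm hG hG' h]
  have s2 : ∀ G ∈ gOmega n d, ∀ G' ∈ gOmega n d, labP w z G = labP w z G' →
      (OddB u v w z G ↔ OddB u v w z G') := by
    intro G hG G' hG' h
    unfold OddB
    rw [yB_eq_of_labP_right hwz huw huz hvw hvz hG hG' h]
  refine ⟨s1, ?_⟩
  intro f G hG hodd
  have hG' : G ∈ (gOmega n d).filter (OddB u v w z) := mem_filter.mpr ⟨hG, hodd⟩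
  have t1 : ∀ φ : SimpleGraph (Fin n) → ℝ, ∀ H ∈ (gOmega n d).filter (OddB u v w z),
      cexpL (gOmega n d) (labP u v) φ H
        = cexpL ((gOmega n d).filter (OddB u v w z)) (labP u v) φ H := by
    intro φ H hH
    obtain ⟨hHΩ, hHo⟩ := mem_filter.mp hH
    exact cexpL_filter_eq (gOmega n d) (OddB u v w z) (labP u v) s1 φ hHΩ hHo
  have t2 : ∀ φ : SimpleGraph (Fin n) → ℝ, ∀ H ∈ (gOmega n d).filter (OddB u v w z),
      cexpL (gOmega n d) (labP w z) φ H
        = cexpL ((gOmega n d).filter (OddB u v w z)) (labP w z) φ H := by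
    intro φ H hH
    obtain ⟨hHΩ, hHo⟩ := mem_filter.mp hH
    exact cexpL_filter_eq (gOmega n d) (OddB u v w z) (labP w z) s2 φ hHΩ hHo
  rw [t1 _ G hG', t2 _ G hG',
    cexpL_congr _ (labP u v) (fun H hH => t2 f H hH) G,
    cexpL_congr _ (labP w z) (fun H hH => t1 f H hH) G]
  exact H24.rect_comm (odd_rectU d huv huw huz hvw hvz hwz) (odd_rectM d huv huw huz hvw hvz hwz)
    f hG'

end H24

end KTVG
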